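import Vale.Agent.P181.MD.Spec
import Vale.Agent.P181.TS.H798.Core

/-!
# P181, MD: the design, combinatorial assembly
-/

set_option autoImplicit false

namespace Vale.Agent.P181.MD.H798

open Finset Vale.Agent.P181 Vale.Agent.P181.H59 Vale.Agent.P181.TS Vale.Agent.P181.MD
open Vale.Agent.P181.TS.H798 (miss_anti miss_image)

/-- three families side by side -/
def join3 {α : Type} {ND NU NF N : ℕ} (hN : ND + NU + NF = N) (B : Fin ND → α) (A : Fin NU → α)
    (F : Fin NF → α) (c : Fin N) : α :=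
  if hc : (c : ℕ) < ND then B ⟨c, hc⟩ else
    if hc2 : (c : ℕ) < ND + NU then A ⟨(c : ℕ) - ND, by omega⟩ else
      F ⟨(c : ℕ) - (ND + NU), by omega⟩

theorem sum_join3 {α : Type} {ND NU NF N : ℕ} (hN : ND + NU + NF = N) (B : Fin ND → α)
    (A : Fin NU → α) (F : Fin NF → α) (w : α → ℕ) :
    ∑ c, w (join3 hN B A F c) = ∑ d, w (B d) + ∑ c, w (A c) + ∑ c, w (F c) := by
  subst hN
  rw [Fin.sum_univ_add, Fin.sum_univ_add]
  congr 1
  · congr 1
    · refine sum_congr rfl fun d _ => ?_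
      congr 1
      unfold join3
      simp
    · refine sum_congr rfl fun d _ => ?_
      congr 1
      unfold join3
      simp
  · refine sum_congr rfl fun d _ => ?_
    congr 1
    unfold join3
    rw [dif_neg (by simp; omega), dif_neg (by simp)]
    congr 1
    ext
    simp

theorem join3_cases {α : Type} {ND NU NF N : ℕ} (hN : ND + NU + NF = N) (B : Fin ND → α)
    (A : Fin NU → α) (F : Fin NF → α) (p : α → Prop) (hB : ∀ d, p (B d)) (hA : ∀ c, p (A c))
    (hF : ∀ c, p (F c)) (c : Fin N) : p (join3 hN B A F c) := by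
  unfold join3
  split_ifs
  · exact hB _
  · exact hA _
  · exact hF _

theorem join3_D {α : Type} {ND NU NF N : ℕ} (hN : ND + NU + NF = N) (B : Fin ND → α)
    (A : Fin NU → α) (F : Fin NF → α) (d : Fin ND) :
    join3 hN B A F ⟨d, by omega⟩ = B d := by
  unfold join3
  simp

theorem dgr_eq_sum {b N : ℕ} (A : Fin N → Finset (Fin b)) (p : Fin b) :
    dgr A p = ∑ c, if p ∈ A c then 1 else 0 := by
  unfold dgr
  rw [card_filter]

theorem sum_dgr {b N m : ℕ} (cl : Fin b → Fin m) (A : Fin N → Finset (Fin b)) (i : Fin m) :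
    ∑ u ∈ cls cl i, dgr A u = ∑ c, (A c ∩ cls cl i).card := by
  simp only [dgr_eq_sum]
  rw [sum_comm]
  refine sum_congr rfl fun c _ => ?_
  rw [← card_filter, inter_comm, filter_mem_eq_inter]

theorem sum_cls {b m : ℕ} (cl : Fin b → Fin m) (g : Fin b → ℕ) :
    ∑ i, ∑ u ∈ cls cl i, g u = ∑ u, g u := by
  unfold cls
  exact sum_fiberwise_of_maps_to (fun _ _ => mem_univ _) g

/-- The combinatorial assembly for given degrees. -/
theorem core (hComp : CompStmt) (hAcc : AccStmt) {b m ND NU NF N e C dD P : ℕ}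
    (hN : ND + NU + NF = N)
    (cl : Fin b → Fin m) (y : Fin b → Fin m → ℕ) (T : Finset (Tst b m)) (hT : MSys P cl y T)
    (hm : 0 < m) (he : 1000 * m ≤ e) (hC : 1 ≤ C)
    (hsz : ∀ i, e ≤ (cls cl i).card ∧ (cls cl i).card ≤ e + m)
    (hst : ∀ i j : Fin m, i < j → (cls cl i).card < (cls cl j).card)
    (gd : Fin b → ℕ)
    (B : Fin ND → Finset (Fin b)) (hBc : ∀ d : Fin ND, (B d).card = m)
    (hBr : ∀ d, RegM cl y (B d))
    (hBt : ∀ t ∈ T, ∃ d, t.2.2.1 ∈ B d ∧ t.2.2.2 ∈ B d ∧ ∀ k ∈ miss cl (B d), k = t.2.1)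
    (hBd : ∀ u, dgr B u ≤ dD)
    (hBv : ∀ i, ∑ d, (B d ∩ cls cl i).card + NU + NF = ∑ u ∈ cls cl i, gd u)
    (A1 : Fin NU → Finset (Fin b)) (hAc : ∀ c : Fin NU, (A1 c).card = m)
    (hA1 : ∀ c i, (A1 c ∩ cls cl i).card = 1)
    (hA : ∀ (T : Finset (Fin b)) (i : Fin m), T.card ≤ e + m →
      (∀ j, (T ∩ cls cl j).card ≤ (T ∩ cls cl i).card) →
      (T \ cls cl i).card ≤ 2 * (cls cl i \ T).card →
      NU * (cls cl i \ T).card ≤ C * e * (univ.filter fun c => Disjoint (A1 c) T).card)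
    (hgd : ∀ u, dgr B u + dgr A1 u ≤ gd u)
    (hz : 2 * C * ND + 4 * C * e * dD < NU) :
    ∃ A : Fin N → Finset (Fin b), (∀ c, (A c).card = m) ∧ (∀ p, dgr A p = gd p) ∧
      (∀ c, RegM cl y (A c)) ∧
      ∀ ρ : Equiv.Perm (Fin b), ρ ≠ 1 →
        (∑ c, (miss cl (A c)).card < ∑ c, (miss cl ((A c).image ρ)).card) ∨
        ((∑ c, (miss cl (A c)).card ≤ ∑ c, (miss cl ((A c).image ρ)).card) ∧
          ∃ c, SingM cl y ((A c).image ρ)) := by
  classical
  have hAm : ∀ c, miss cl (A1 c) = ∅ := by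
    intro c
    rw [eq_empty_iff_forall_notMem]
    intro i hi
    have h1 : A1 c ∩ cls cl i = ∅ := by
      rw [eq_empty_iff_forall_notMem]
      intro u hu
      rw [mem_inter] at hu
      unfold miss at hi
      unfold cls at hu
      rw [mem_filter] at hi hu
      exact hi.2 u hu.1 hu.2.2
    have h2 := hA1 c i
    rw [h1, card_empty] at h2
    omega
  obtain ⟨F, hFc, hFm, hFd⟩ := hComp b m NF cl (fun u => gd u - dgr B u - dgr A1 u) (by
    intro i
    have h1 : ∑ u ∈ cls cl i, (gd u - dgr B u - dgr A1 u) + ∑ u ∈ cls cl i, dgr B u +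
        ∑ u ∈ cls cl i, dgr A1 u = ∑ u ∈ cls cl i, gd u := by
      rw [← sum_add_distrib, ← sum_add_distrib]
      refine sum_congr rfl fun u _ => ?_
      have := hgd u
      omega
    have h2 : ∑ u ∈ cls cl i, dgr A1 u = NU := by
      rw [sum_dgr, sum_congr rfl fun c _ => hA1 c i]
      simp
    rw [sum_dgr cl B i] at h1
    have h3 := hBv i
    omega)
  refine ⟨join3 hN B A1 F, join3_cases hN B A1 F (fun A => A.card = m) hBc hAc hFc, fun p => ?_,
    join3_cases hN B A1 F (fun A => RegM cl y A) hBr (fun c => Or.inl (hAm c))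
      (fun c => Or.inl (hFm c)), fun ρ hρ => ?_⟩
  · rw [dgr_eq_sum, sum_join3 hN B A1 F (fun A => if p ∈ A then 1 else 0), ← dgr_eq_sum,
      ← dgr_eq_sum, ← dgr_eq_sum, hFd]
    have := hgd p
    omega
  · obtain hcl | hlt2 := hAcc b m e C NU ND dD ND cl A1 B hm he hC hsz hst hA hBd
      (fun k => by
        refine le_trans (card_le_univ _) ?_
        rw [Fintype.card_fin]) hz ρ
    · right
      refine ⟨le_of_eq (sum_congr rfl fun c _ => ?_), ?_⟩
      · rw [miss_image cl ρ hcl]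
      · obtain ⟨hT1, -, -, -, hT5⟩ := hT
        by_contra hne
        apply hρ
        apply hT5 ρ hcl
        intro t ht hyy
        apply hne
        obtain ⟨d, hd1, hd2, hd4⟩ := hBt t ht
        obtain ⟨ht1, ht2, ht3, -, -⟩ := hT1 t ht
        refine ⟨⟨d, by omega⟩, ?_⟩
        rw [join3_D hN B A1 F d]
        refine ⟨ρ t.2.2.1, mem_image_of_mem _ hd1, ρ t.2.2.2, mem_image_of_mem _ hd2,
          fun hh => ht3 (ρ.injective hh), ?_, ?_⟩
        · rw [hcl, hcl, ht1, ht2]
        · intro k hk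
          rw [miss_image cl ρ hcl] at hk
          rw [hd4 k hk]
          exact hyy
    · left
      rw [sum_join3 hN B A1 F (fun A => (miss cl A).card),
        sum_join3 hN B A1 F (fun A => (miss cl (A.image ρ)).card),
        sum_eq_zero (fun c _ => by rw [hAm c, card_empty] : ∀ c ∈ (univ : Finset (Fin NU)),
          (miss cl (A1 c)).card = 0),
        sum_eq_zero (fun c _ => by rw [hFm c, card_empty] : ∀ c ∈ (univ : Finset (Fin NF)),
          (miss cl (F c)).card = 0)]
      omega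

end Vale.Agent.P181.MD.H798
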