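import Vale.Agent.P181.MD.H798.Core

/-!
# P181, MD: the design for columns of fixed length
-/

set_option autoImplicit false

namespace Vale.Agent.P181.MD.H798

open Finset Vale.Agent.P181 Vale.Agent.P181.H59 Vale.Agent.P181.TS Vale.Agent.P181.MD

/-- numbers of size `b ^ (3 / 2)` are small -/
theorem small {b m N X K : ℕ} (hm : m ^ 20 ≤ b) (hN : b ^ 8 ≤ N ^ 5)
    (hb : K ^ 40 * 2000 ^ 20 ≤ b) (hX : X ^ 2 ≤ 2000 * (m * b ^ 3)) : K * X ≤ N := by
  have h1 : (K * X) ^ 40 ≤ N ^ 40 := by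
    calc (K * X) ^ 40 = K ^ 40 * (X ^ 2) ^ 20 := by ring
      _ ≤ K ^ 40 * (2000 * (m * b ^ 3)) ^ 20 :=
          Nat.mul_le_mul_left _ (Nat.pow_le_pow_left hX 20)
      _ = (K ^ 40 * 2000 ^ 20) * (m ^ 20 * b ^ 60) := by ring
      _ ≤ b * (b * b ^ 60) := Nat.mul_le_mul hb (Nat.mul_le_mul_right _ hm)
      _ ≤ (b * (b * b ^ 60)) * b ^ 2 := by
          rcases Nat.eq_zero_or_pos b with h | h
          · simp [h]
          · exact Nat.le_mul_of_pos_right _ (by positivity)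
      _ = (b ^ 8) ^ 8 := by ring
      _ ≤ (N ^ 5) ^ 8 := Nat.pow_le_pow_left hN 8
      _ = N ^ 40 := by ring
  exact (Nat.pow_le_pow_iff_left (by norm_num)).1 h1

theorem desMStep : DesMStep := by
  intro hSz hSys hD hU hComp hAcc
  obtain ⟨C, hC, hU⟩ := hU
  obtain ⟨b0, hb0⟩ : ∃ b0 : ℕ, (4000 * C ^ 2) ^ 40 * 2000 ^ 20 ≤ b0 ∧ 10 ^ 12 ≤ b0 :=
    ⟨max ((4000 * C ^ 2) ^ 40 * 2000 ^ 20) (10 ^ 12), le_max_left _ _, le_max_right _ _⟩
  refine ⟨b0, fun b m N hb hm3 hm hN1 hN2 => ?_⟩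
  have hbK : (4000 * C ^ 2) ^ 40 * 2000 ^ 20 ≤ b := le_trans hb0.1 hb
  have hb12 : 10 ^ 12 ≤ b := le_trans hb0.2 hb
  clear hb hb0
  have hm0 : 0 < m := by omega
  have hm1 : m ≤ m ^ 20 := Nat.le_self_pow (by norm_num) m
  -- `m` is small
  have hm2 : 2000 * m ^ 2 ≤ b := by
    have h1 : (2000 * m ^ 2) ^ 10 ≤ b ^ 10 := by
      calc (2000 * m ^ 2) ^ 10 = 2000 ^ 10 * m ^ 20 := by ring
        _ ≤ 2000 ^ 10 * b := Nat.mul_le_mul_left _ hm
        _ ≤ (10 ^ 12) ^ 9 * b := Nat.mul_le_mul_right _ (by norm_num)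
        _ ≤ b ^ 9 * b := Nat.mul_le_mul_right _ (Nat.pow_le_pow_left hb12 9)
        _ = b ^ 10 := by ring
    exact (Nat.pow_le_pow_iff_left (by norm_num)).1 h1
  obtain ⟨cl, e, he1, he2, he3, hsz, hst⟩ := hSz b m hm0 hm2
  have he6 : 10 ^ 6 ≤ e := by
    by_contra hc
    push Not at hc
    have e1 : b ≤ m * (2 * e) := le_trans he3 (Nat.mul_le_mul_left _ (by omega))
    have e2 : 1000 * b ≤ e * (2 * e) := by
      calc 1000 * b ≤ 1000 * (m * (2 * e)) := Nat.mul_le_mul_left _ e1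
        _ = (1000 * m) * (2 * e) := by ring
        _ ≤ e * (2 * e) := Nat.mul_le_mul_right _ he1
    nlinarith
  obtain ⟨P, y, T, hP, hT⟩ := hSys b m e cl hm3 (by omega) hsz
  have hTc : T.card ≤ 8 * P * b := hT.2.2.1
  have hPe : P ^ 2 ≤ 8 * e := by omega
  have hP4 : 4 * P ≤ e := by
    by_contra hc
    push Not at hc
    have h1 : e ^ 2 < (4 * P) ^ 2 := Nat.pow_lt_pow_left hc two_ne_zero
    have h2 : (4 * P) ^ 2 = 16 * P ^ 2 := by ring
    nlinarith
  have h3e : 3 * e ≤ m * e := Nat.mul_le_mul_right _ hm3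
  obtain ⟨ND, hND⟩ : ∃ ND : ℕ, ND = 8 * P * b + m * (3 * e + 8 * P * b) := ⟨_, rfl⟩
  have hND1 : T.card + m * (3 * e + T.card) ≤ ND := by
    rw [hND]
    exact Nat.add_le_add hTc (Nat.mul_le_mul_left _ (Nat.add_le_add_left hTc _))
  have hND2 : 3 * (m * e) ≤ ND := by
    rw [hND]
    calc 3 * (m * e) = m * (3 * e) := by ring
      _ ≤ m * (3 * e + 8 * P * b) := Nat.mul_le_mul_left _ (by omega)
      _ ≤ _ := by omega
  have hND3 : ND ^ 2 ≤ 2000 * (m * b ^ 3) := by
    have f1 : ND ≤ 11 * (P * b * m) + 3 * b := by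
      rw [hND]
      have g1 : 3 * (P * b) ≤ m * (P * b) := Nat.mul_le_mul_right _ hm3
      have g2 : m * (3 * e + 8 * P * b) = 3 * (m * e) + 8 * (m * (P * b)) := by ring
      have g3 : P * b * m = m * (P * b) := by ring
      have g4 : 8 * P * b = 8 * (P * b) := by ring
      rw [g2, g3, g4]
      omega
    have f2 : (P * b * m) ^ 2 ≤ 8 * (m * b ^ 3) := by
      calc (P * b * m) ^ 2 = P ^ 2 * (b ^ 2 * m ^ 2) := by ring
        _ ≤ 8 * e * (b ^ 2 * m ^ 2) := Nat.mul_le_mul_right _ hPe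
        _ = 8 * (m * e) * (m * b ^ 2) := by ring
        _ ≤ 8 * b * (m * b ^ 2) := Nat.mul_le_mul_right _ (Nat.mul_le_mul_left _ he2)
        _ = 8 * (m * b ^ 3) := by ring
    have f3 : (3 * b) ^ 2 ≤ m * b ^ 3 := by
      calc (3 * b) ^ 2 = 9 * b ^ 2 := by ring
        _ ≤ b * b ^ 2 := Nat.mul_le_mul_right _ (by omega)
        _ = 1 * b ^ 3 := by ring
        _ ≤ m * b ^ 3 := Nat.mul_le_mul_right _ (by omega)
    calc ND ^ 2 ≤ (11 * (P * b * m) + 3 * b) ^ 2 := Nat.pow_le_pow_left f1 2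
      _ ≤ 2 * (11 * (P * b * m)) ^ 2 + 2 * (3 * b) ^ 2 := by nlinarith [sq_nonneg ((11 * (P * b * m) : ℤ) - 3 * b)]
      _ = 242 * (P * b * m) ^ 2 + 2 * (3 * b) ^ 2 := by ring
      _ ≤ 242 * (8 * (m * b ^ 3)) + 2 * (m * b ^ 3) := by omega
      _ ≤ 2000 * (m * b ^ 3) := by omega
  have hKND : 4000 * C ^ 2 * ND ≤ N := small hm hN1 hbK hND3
  -- logarithm
  obtain ⟨r, hr⟩ : ∃ r : ℕ, r = Nat.log 2 b := ⟨_, rfl⟩
  have hr2 : 2 ^ r ≤ b := by rw [hr]; exact Nat.pow_log_le_self 2 (by omega)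
  have hrb : (r + 1) ^ 2 ≤ 4 * b := by
    have f1 : ∀ r : ℕ, r ^ 2 ≤ 4 * 2 ^ r ∧ (r + 1) ^ 2 ≤ 4 * 2 ^ r := by
      intro r
      induction r with
      | zero => simp
      | succ r ih =>
        refine ⟨?_, ?_⟩
        · calc (r + 1) ^ 2 ≤ 4 * 2 ^ r := ih.2
            _ ≤ 4 * 2 ^ (r + 1) := by
                rw [pow_succ]
                omega
        · rcases Nat.lt_or_ge r 3 with h | h
          · interval_cases r <;> norm_num
          · have h1 := ih.2
            rw [pow_succ 2 r]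
            nlinarith
    exact le_trans (f1 r).2 (Nat.mul_le_mul_left _ hr2)
  have hQ : (e * (r + 1)) ^ 2 ≤ 2000 * (m * b ^ 3) := by
    have f1 : e ≤ b := by
      calc e ≤ 3 * e := by omega
        _ ≤ m * e := h3e
        _ ≤ b := he2
    calc (e * (r + 1)) ^ 2 = e ^ 2 * (r + 1) ^ 2 := by ring
      _ ≤ b ^ 2 * (4 * b) := Nat.mul_le_mul (Nat.pow_le_pow_left f1 2) hrb
      _ = 4 * (1 * b ^ 3) := by ring
      _ ≤ 4 * (m * b ^ 3) := Nat.mul_le_mul_left _ (Nat.mul_le_mul_right _ (by omega))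
      _ ≤ 2000 * (m * b ^ 3) := Nat.mul_le_mul_right _ (by norm_num)
  have hKQ : 4000 * C ^ 2 * (e * (r + 1)) ≤ N := small hm hN1 hbK hQ
  obtain ⟨NU, hNU⟩ : ∃ NU : ℕ, NU = N / (8 * C) := ⟨_, rfl⟩
  have hNU1 : 8 * C * NU ≤ N := by rw [hNU]; exact Nat.mul_div_le _ _
  have hNU2 : N < 8 * C * (NU + 1) := by
    rw [hNU]
    exact Nat.lt_mul_div_succ _ (by omega)
  have hNDpos : 3 ≤ ND := by
    have : 1 ≤ m * e := Nat.mul_pos hm0 (by omega)
    omega
  -- `100 C ND < NU` and `C e (r + 1) ≤ NU`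
  have hNUa : 400 * C * ND ≤ NU := by
    have h1 : 8 * C * (400 * C * ND) < 8 * C * (NU + 1) := by
      calc 8 * C * (400 * C * ND) = 3200 * C ^ 2 * ND := by ring
        _ ≤ 4000 * C ^ 2 * ND := Nat.mul_le_mul_right _ (Nat.mul_le_mul_right _ (by norm_num))
        _ ≤ N := hKND
        _ < _ := hNU2
    have h2 := Nat.lt_of_mul_lt_mul_left h1
    omega
  have hNUb : C * (e * (r + 1)) ≤ NU := by
    have h1 : 8 * C * (C * (e * (r + 1))) < 8 * C * (NU + 1) := by
      calc 8 * C * (C * (e * (r + 1))) = 8 * C ^ 2 * (e * (r + 1)) := by ring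
        _ ≤ 4000 * C ^ 2 * (e * (r + 1)) :=
            Nat.mul_le_mul_right _ (Nat.mul_le_mul_right _ (by norm_num))
        _ ≤ N := hKQ
        _ < _ := hNU2
    have h2 := Nat.lt_of_mul_lt_mul_left h1
    omega
  have hlogU : (C : ℝ) * e * Real.log (b + 1) ≤ NU := by
    have e1 : ((b : ℝ) + 1) ≤ 2 ^ (r + 1) := by
      have : b + 1 ≤ 2 ^ (r + 1) := by
        have f1 : b < 2 ^ (Nat.log 2 b + 1) := Nat.lt_pow_succ_log_self (by norm_num) b
        rw [hr]
        omega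
      exact_mod_cast this
    have hl2' := Real.log_two_lt_d9
    have e2 : Real.log (b + 1) ≤ ((r + 1 : ℕ) : ℝ) := by
      calc Real.log (b + 1) ≤ Real.log ((2 : ℝ) ^ (r + 1)) :=
            Real.log_le_log (by positivity) e1
        _ = ((r + 1 : ℕ) : ℝ) * Real.log 2 := Real.log_pow _ _
        _ ≤ ((r + 1 : ℕ) : ℝ) * 1 := mul_le_mul_of_nonneg_left (by linarith) (by positivity)
        _ = _ := mul_one _
    calc (C : ℝ) * e * Real.log (b + 1) ≤ C * e * ((r + 1 : ℕ) : ℝ) :=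
          mul_le_mul_of_nonneg_left e2 (by positivity)
      _ = ((C * (e * (r + 1)) : ℕ) : ℝ) := by push_cast; ring
      _ ≤ NU := by exact_mod_cast hNUb
  obtain ⟨A1, hAc, hA1, hAd, hA⟩ := hU b m e NU cl hm0 he1 he6 hsz hlogU
  have hNDN : 4000 * ND ≤ N := by
    calc 4000 * ND ≤ 4000 * C ^ 2 * ND :=
          Nat.mul_le_mul_right _ (Nat.le_mul_of_pos_right _ (by positivity))
      _ ≤ N := hKND
  have hNUN : 8 * NU ≤ N := by
    calc 8 * NU ≤ 8 * C * NU := Nat.mul_le_mul_right _ (by omega)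
      _ ≤ N := hNU1
  obtain ⟨NF, hNF⟩ : ∃ NF : ℕ, ND + NU + NF = N := ⟨N - ND - NU, by omega⟩
  obtain ⟨dD, hdD⟩ : ∃ dD : ℕ, dD = 8 * P + 8 * (ND / e) + 8 * m := ⟨_, rfl⟩
  have hPb : P * e ≤ ND := by
    have f1 : e ≤ b := by
      calc e ≤ 3 * e := by omega
        _ ≤ m * e := h3e
        _ ≤ b := he2
    have f2 : P * e ≤ P * b := Nat.mul_le_mul_left _ f1
    have f3 : 8 * P * b = 8 * (P * b) := by ring
    rw [hND, f3]
    omega
  have hedD : e * dD ≤ 19 * ND := by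
    have f1 : e * (ND / e) ≤ ND := Nat.mul_div_le _ _
    calc e * dD = 8 * (P * e) + 8 * (e * (ND / e)) + 8 * (m * e) := by rw [hdD]; ring
      _ ≤ 8 * ND + 8 * ND + 3 * ND := by omega
      _ = 19 * ND := by ring
  have hz : 2 * C * ND + 4 * C * e * dD < NU := by
    have f1 : 0 < C * ND := Nat.mul_pos (by omega) (by omega)
    calc 2 * C * ND + 4 * C * e * dD = 2 * (C * ND) + 4 * C * (e * dD) := by ring
      _ ≤ 2 * (C * ND) + 4 * C * (19 * ND) :=
          Nat.add_le_add_left (Nat.mul_le_mul_left _ hedD) _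
      _ = 78 * (C * ND) := by ring
      _ < 400 * (C * ND) := by omega
      _ = 400 * C * ND := by ring
      _ ≤ NU := hNUa
  -- the class sums
  have hmN : m ^ 2 * N ≤ e * b := by
    have f1 : b ≤ 2 * (m * e) := by
      calc b ≤ m * (e + m) := he3
        _ ≤ m * (2 * e) := Nat.mul_le_mul_left _ (by omega)
        _ = _ := by ring
    have f2 : 2 * m ^ 3 * N ≤ b ^ 2 := by
      have g1 : (2 * m ^ 3 * N) ^ 20 ≤ (b ^ 2) ^ 20 := by
        calc (2 * m ^ 3 * N) ^ 20 = 2 ^ 20 * (m ^ 20) ^ 3 * (N ^ 5) ^ 4 := by ring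
          _ ≤ 2 ^ 20 * b ^ 3 * (32 * b ^ 8) ^ 4 :=
              Nat.mul_le_mul (Nat.mul_le_mul_left _ (Nat.pow_le_pow_left hm 3))
                (Nat.pow_le_pow_left hN2 4)
          _ = 2 ^ 40 * b ^ 35 := by ring
          _ ≤ b ^ 5 * b ^ 35 := by
              apply Nat.mul_le_mul_right
              calc 2 ^ 40 ≤ (10 ^ 12) ^ 5 := by norm_num
                _ ≤ b ^ 5 := Nat.pow_le_pow_left hb12 5
          _ = (b ^ 2) ^ 20 := by ring
      exact (Nat.pow_le_pow_iff_left (by norm_num)).1 g1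
    have f3 : (2 * m) * (m ^ 2 * N) ≤ (2 * m) * (e * b) := by
      calc (2 * m) * (m ^ 2 * N) = 2 * m ^ 3 * N := by ring
        _ ≤ b ^ 2 := f2
        _ = b * b := by ring
        _ ≤ 2 * (m * e) * b := Nat.mul_le_mul_right _ f1
        _ = (2 * m) * (e * b) := by ring
    exact Nat.le_of_mul_le_mul_left f3 (by omega)
  refine ⟨cl, y, fun gd hgd hsum => ?_⟩
  have hb0 : 0 < b := by omega
  have hup : ∀ u, b * gd u ≤ N * m + b := by
    intro u
    calc b * gd u = ∑ _q : Fin b, gd u := by simp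
      _ ≤ ∑ q : Fin b, (gd q + 1) := sum_le_sum fun q _ => hgd u q
      _ = N * m + b := by rw [sum_add_distrib, hsum]; simp
  have hlo : ∀ u, N * m ≤ b * gd u + b := by
    intro u
    calc N * m = ∑ q, gd q := hsum.symm
      _ ≤ ∑ _q : Fin b, (gd u + 1) := sum_le_sum fun q _ => hgd q u
      _ = b * gd u + b := by simp [mul_add]
  have hemb : m * e ≤ b := he2
  have hGup : ∀ i, ∑ u ∈ cls cl i, gd u ≤ N + 3 * e := by
    intro i
    have g1 : b * ∑ u ∈ cls cl i, gd u ≤ b * (N + 3 * e) := by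
      calc b * ∑ u ∈ cls cl i, gd u = ∑ u ∈ cls cl i, b * gd u := mul_sum _ _ _
        _ ≤ ∑ _u ∈ cls cl i, (N * m + b) := sum_le_sum fun u _ => hup u
        _ = (cls cl i).card * (N * m + b) := by rw [sum_const, smul_eq_mul]
        _ ≤ (e + m) * (N * m + b) := Nat.mul_le_mul_right _ (hsz i).2
        _ = N * (m * e) + m ^ 2 * N + (e * b + m * b) := by ring
        _ ≤ N * b + e * b + (e * b + e * b) := by
            have h1 : N * (m * e) ≤ N * b := Nat.mul_le_mul_left _ he2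
            have h2 : m * b ≤ e * b := Nat.mul_le_mul_right _ (by omega)
            omega
        _ = b * (N + 3 * e) := by ring
    exact Nat.le_of_mul_le_mul_left g1 hb0
  have hGlo : ∀ i, N ≤ ∑ u ∈ cls cl i, gd u + 3 * e := by
    intro i
    have g1 : b * N ≤ b * (∑ u ∈ cls cl i, gd u + 3 * e) := by
      have g2 : (cls cl i).card * (N * m) ≤
          b * ∑ u ∈ cls cl i, gd u + (cls cl i).card * b := by
        calc (cls cl i).card * (N * m) = ∑ _u ∈ cls cl i, N * m := by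
              rw [sum_const, smul_eq_mul]
          _ ≤ ∑ u ∈ cls cl i, (b * gd u + b) := sum_le_sum fun u _ => hlo u
          _ = _ := by rw [sum_add_distrib, ← mul_sum, sum_const, smul_eq_mul]
      have g3 : e * (N * m) ≤ (cls cl i).card * (N * m) := Nat.mul_le_mul_right _ (hsz i).1
      have g4 : (cls cl i).card * b ≤ (e + m) * b := Nat.mul_le_mul_right _ (hsz i).2
      have g5 : b * N ≤ e * (N * m) + m ^ 2 * N := by
        calc b * N ≤ m * (e + m) * N := Nat.mul_le_mul_right _ he3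
          _ = _ := by ring
      have g6 : (e + m) * b ≤ 2 * (e * b) := by
        calc (e + m) * b ≤ (2 * e) * b := Nat.mul_le_mul_right _ (by omega)
          _ = _ := by ring
      have g7 : b * (∑ u ∈ cls cl i, gd u + 3 * e) = b * ∑ u ∈ cls cl i, gd u + 3 * (e * b) := by
        ring
      rw [g7]
      omega
    exact Nat.le_of_mul_le_mul_left g1 hb0
  have h3eND : 3 * e ≤ ND := by omega
  obtain ⟨B, hBc, hBr, hBt, hBv, hBd⟩ := hD b m e P (3 * e) ND cl y T hm3 he1 hsz hT hP4 hND1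
    (fun i => ∑ u ∈ cls cl i, gd u + ND - N) (by
      have g1 : ∑ i, (∑ u ∈ cls cl i, gd u + ND - N) + m * N = ND * m + m * N := by
        calc ∑ i, (∑ u ∈ cls cl i, gd u + ND - N) + m * N
            = ∑ i : Fin m, (∑ u ∈ cls cl i, gd u + ND - N + N) := by
              rw [sum_add_distrib]
              simp
          _ = ∑ i : Fin m, (∑ u ∈ cls cl i, gd u + ND) := by
              refine sum_congr rfl fun i _ => ?_
              have := hGlo i
              omega
          _ = ND * m + m * N := by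
              rw [sum_add_distrib, sum_cls, hsum]
              simp
              ring
      omega) (fun i => by
        have h1 := hGlo i
        have h2 := hGup i
        constructor <;> omega)
  rw [← hdD] at hBd
  refine core hComp hAcc hNF cl y T hT hm0 he1 hC hsz hst gd B hBc hBr hBt hBd (fun i => ?_) A1
    hAc hA1 hA (fun u => ?_) hz
  · rw [hBv i]
    have h1 := hGlo i
    omega
  · -- degrees
    have g1 : e * (dgr B u + dgr A1 u) ≤ e * gd u := by
      have g2 : e * dgr B u ≤ 19 * ND := le_trans (Nat.mul_le_mul_left _ (hBd u)) hedD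
      have g3 : 8 * (e * dgr A1 u) ≤ N := by
        calc 8 * (e * dgr A1 u) ≤ 8 * (C * NU) := Nat.mul_le_mul_left _ (hAd u)
          _ = 8 * C * NU := by ring
          _ ≤ N := hNU1
      have g4 : N ≤ 2 * (e * gd u) + 2 * e := by
        have g5 : m * N ≤ m * (2 * (e * gd u) + 2 * e) := by
          calc m * N = N * m := mul_comm _ _
            _ ≤ b * gd u + b := hlo u
            _ = b * (gd u + 1) := by ring
            _ ≤ (m * (2 * e)) * (gd u + 1) := by
                apply Nat.mul_le_mul_right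
                exact le_trans he3 (Nat.mul_le_mul_left _ (by omega))
            _ = _ := by ring
        exact Nat.le_of_mul_le_mul_left g5 hm0
      rw [mul_add]
      omega
    exact Nat.le_of_mul_le_mul_left g1 (by omega)

end Vale.Agent.P181.MD.H798
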